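import Vale.Agent.P022.H266.L3.Word

/-!
P022-L3: the type at 3 and the relations of the six letters, for two-dimensional
pseudorepresentations (letters of H266).
-/

namespace Vale.Agent.P022.L3

open Vale.Agent.P022.H266.L3

variable {R H : Type*} [CommRing R] [Group H] {t : H → R} {d : H →* Rˣ}

namespace PsR

theorem t_inv (P : Ps t d) (h : H) : (d h : R) * t h⁻¹ = t h := by
  have h1 := P.mul 1 h
  rw [one_mul, one_mul, P.one] at h1
  linear_combination h1

theorem tw (P : Ps t d) {τ : H} (hdτ : d τ = -1) (g : H) :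
    t (g * τ) - t (g * τ⁻¹) = t g * t τ := by
  have h := P.mul g τ
  rw [hdτ] at h
  push_cast at h
  linear_combination h

/-- `t(c) t(g) = 0` for an involution `c` with `d(c) = -1` -/
theorem t_c (P : Ps t d) {c : H} (hc : c * c = 1) (hdc : d c = -1) (g : H) : t g * t c = 0 := by
  have h := tw P hdc g
  rw [inv_eq_of_mul_eq_one_left hc, sub_self] at h
  exact h.symm

section

variable (P : Ps t d) {σ τ : H} (hdτ : d τ = -1) (hr : σ * τ = τ * τ * τ * σ)

include P hdτ hr

theorem y_m : t (σ * τ) * t τ = 0 := by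
  have h := tw P hdτ (σ * τ)
  rw [mul_inv_cancel_right] at h
  have h1 : t (σ * τ * τ) = t σ := by
    have e1 : τ * (τ⁻¹ * (σ * τ)) = σ * τ := by group
    have e2 : τ⁻¹ * (σ * τ) = τ * (τ * σ) := by rw [hr]; group
    have e3 : t (τ⁻¹ * (σ * τ)) = t σ := by
      rw [P.comm τ⁻¹ (σ * τ), mul_inv_cancel_right]
    rw [e2, P.comm τ (τ * σ), mul_assoc, P.comm τ (σ * τ)] at e3
    exact e3
  rw [← h, h1, sub_self]

theorem x_m : t σ * t τ = 0 := by
  have h := tw P hdτ (σ * τ * τ)
  rw [mul_inv_cancel_right] at h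
  have h1 : t (σ * τ * τ) = t σ := by
    have h2 := tw P hdτ (σ * τ)
    rw [mul_inv_cancel_right, y_m P hdτ hr] at h2
    linear_combination h2
  have h3 : t (σ * τ * τ * τ) = t (σ * τ) := by
    have e1 : σ * τ * τ * τ = σ * (τ * τ * τ) := by simp only [mul_assoc]
    rw [e1, P.comm σ, ← hr]
  rw [h1, h3, sub_self] at h
  exact h.symm

end

section

variable (P : Ps t d) {c σ τ : H} (hc : c * c = 1) (hdc : d c = -1) (hdτ : d τ = -1)
  (hr : σ * τ = τ * τ * τ * σ) (htc : t c = 0) (htτ : t τ = 0)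

include P hdτ htτ in
theorem ti (g : H) : t (g * τ⁻¹) = t (g * τ) := by
  have h := tw P hdτ g
  rw [htτ, mul_zero] at h
  linear_combination -h

include P hdτ htτ in
theorem tt (a b : H) : t (a * (τ * (τ * b))) = t (a * b) := by
  have h := ti P hdτ htτ (b * a * τ)
  rw [mul_inv_cancel_right] at h
  have e1 : a * (τ * (τ * b)) = (a * τ * τ) * b := by simp only [mul_assoc]
  rw [e1, P.comm (a * τ * τ) b, P.comm a b, h]
  simp only [mul_assoc]

include P hdτ hr htτ in
theorem ts (a b : H) : t (a * (σ * (τ * b))) = t (a * (τ * (σ * b))) := by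
  have e1 : a * (σ * (τ * b)) = a * (τ * (τ * (τ * (σ * b)))) := by
    have : σ * (τ * b) = (σ * τ) * b := by simp only [mul_assoc]
    rw [this, hr]
    simp only [mul_assoc]
  rw [e1, tt P hdτ htτ]

include P hdτ htτ in
theorem tii (a b : H) : t (a * (τ⁻¹ * b)) = t (a * (τ * b)) := by
  have h := ti P hdτ htτ (b * a)
  rw [← mul_assoc a, P.comm (a * τ⁻¹) b, ← mul_assoc a, P.comm (a * τ) b, ← mul_assoc b,
    ← mul_assoc b, h]

/-- the conclusions: `x = t σ`, `y = t (σ τ)`, `z = d σ`, `A = t (c τ)`, `B = t (c σ)`,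
`C = t (c σ τ)` -/
structure Rels (x y z A B C : R) : Prop where
  r1 : 2 * C = A * x
  r2 : 2 * B = A * y
  r3 : y ^ 2 = x ^ 2 - 4 * z
  r4 : y * B = C * x - 2 * A * z
  r5 : B ^ 2 = C ^ 2 - A ^ 2 * z
  r6 : B * x = C * y

include P hc hdc hdτ hr htc htτ in
theorem rels : Rels (t σ) (t (σ * τ)) (d σ) (t (c * τ)) (t (c * σ)) (t (c * (σ * τ))) := by
  have hci : c⁻¹ = c := inv_eq_of_mul_eq_one_left hc
  have TT := tt P hdτ htτ
  have TS := ts P hdτ hr htτ
  have TI := tii P hdτ htτ
  have one' : ∀ g : H, g * 1 = g := mul_one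
  have dc : (d c : R) = -1 := by rw [hdc]; simp
  have dt : (d τ : R) = -1 := by rw [hdτ]; simp
  -- words without `b`
  have TT1 : ∀ a, t (a * (τ * τ)) = t a := fun a => by simpa using TT a 1
  have TS1 : ∀ a, t (a * (σ * τ)) = t (a * (τ * σ)) := fun a => by simpa using TS a 1
  constructor
  · -- `t(σ) t(cτ) = t(σ c τ) + t(σ τ⁻¹ c)`
    have h := P.mul σ (c * τ)
    rw [mul_inv_rev, hci, map_mul] at h
    push_cast at h
    rw [dc, dt, TI σ c] at h
    have e1 : t (σ * (c * τ)) = t (c * (σ * τ)) := by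
      rw [P.comm σ (c * τ), mul_assoc, TS1 c]
    have e2 : t (σ * (τ * c)) = t (c * (σ * τ)) := by
      rw [← mul_assoc, P.comm (σ * τ) c]
    rw [e1, e2] at h
    linear_combination h
  · have h := P.mul (σ * τ) (c * τ)
    rw [mul_inv_rev, hci, map_mul] at h
    push_cast at h
    rw [dc, dt] at h
    have e1 : t (σ * τ * (c * τ)) = t (c * σ) := by
      rw [P.comm (σ * τ) (c * τ), TS1 (c * τ), mul_assoc]
      exact TT c σ
    have e2 : t (σ * τ * (τ⁻¹ * c)) = t (c * σ) := by
      rw [mul_assoc, mul_inv_cancel_left, P.comm σ c]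
    rw [e1, e2] at h
    linear_combination h
  · have h := P.mul (σ * τ) (σ * τ)
    rw [mul_inv_cancel, P.one, map_mul] at h
    push_cast at h
    rw [dt] at h
    have h2 := P.mul σ σ
    rw [mul_inv_cancel, P.one] at h2
    have e1 : t (σ * τ * (σ * τ)) = t (σ * σ) := by
      rw [TS1 (σ * τ), mul_assoc]
      exact TT σ σ
    rw [e1] at h
    linear_combination h2 - h
  · have h := P.mul (c * σ) (σ * τ)
    have h2 := P.mul (c * (σ * τ)) σ
    rw [map_mul] at h
    push_cast at h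
    rw [dt] at h
    have e1 : t (c * (σ * τ) * σ) = t (c * σ * (σ * τ)) := by
      have := TS (c * σ) 1
      simp only [mul_one, mul_assoc] at this ⊢
      rw [this]
    have e2 : t (c * σ * (σ * τ)⁻¹) = t (c * τ) := by
      rw [mul_inv_rev, ← mul_assoc, mul_assoc (c * σ)]
      have := TI (σ⁻¹ * (c * σ)) 1
      have h3 : t (c * σ * (τ⁻¹ * σ⁻¹)) = t (σ⁻¹ * (c * σ) * (τ⁻¹ * 1)) := by
        rw [← mul_assoc, P.comm, mul_one]
        simp only [mul_assoc]
      rw [h3, this, mul_one]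
      have h4 : t (σ⁻¹ * (c * σ) * τ) = t (c * (σ * (τ * σ⁻¹))) := by
        rw [mul_assoc, P.comm]
        simp only [mul_assoc]
      rw [h4, TS c σ⁻¹, mul_inv_cancel, mul_one]
    have e3 : t (c * (σ * τ) * σ⁻¹) = t (c * τ) := by
      have := TS c σ⁻¹
      rw [mul_inv_cancel, mul_one] at this
      rw [← this]
      simp only [mul_assoc]
    rw [e2] at h
    rw [e1, e3] at h2
    linear_combination h2 - h
  · have h := P.mul (c * σ) (τ * (c * σ) * τ)
    have h2 := P.mul (c * (σ * τ)) (c * (σ * τ))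
    have h3 := P.mul (c * τ) (c * τ)
    rw [mul_inv_cancel, P.one, map_mul] at h3
    rw [mul_inv_cancel, P.one, map_mul, map_mul] at h2
    simp only [map_mul] at h
    push_cast at h h2 h3
    rw [dc, dt] at h h2 h3
    have e1 : t (τ * (c * σ) * τ) = t (c * σ) := by
      rw [P.comm, ← mul_assoc, P.comm]
      exact TT1 _
    have e2 : t (c * σ * (τ * (c * σ) * τ)) = t (c * (σ * τ) * (c * (σ * τ))) := by
      simp only [mul_assoc]
    have e3 : t (c * σ * (τ * (c * σ) * τ)⁻¹) = t (c * τ * (c * τ)) := by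
      have h5 : c * σ * (τ * (c * σ) * τ)⁻¹ = c * (σ * (τ⁻¹ * (σ⁻¹ * (c⁻¹ * τ⁻¹)))) := by
        simp only [mul_inv_rev, mul_assoc]
      rw [h5, hci]
      have h6 : t (c * (σ * (τ⁻¹ * (σ⁻¹ * (c * τ⁻¹))))) = t (c * (σ * (τ * (σ⁻¹ * (c * τ⁻¹))))) := by
        have := TI (c * σ) (σ⁻¹ * (c * τ⁻¹))
        simpa only [mul_assoc] using this
      rw [h6, TS c (σ⁻¹ * (c * τ⁻¹)), mul_inv_cancel_left]
      have h7 := TI (c * (τ * c)) 1
      simp only [mul_one, mul_assoc] at h7 ⊢
      exact h7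
    rw [e1, e2, e3] at h
    linear_combination h2 - h - (d σ : R) * h3
  · have h := P.mul (c * σ) σ
    have h2 := P.mul (c * (σ * τ)) (σ * τ)
    rw [mul_inv_cancel_right, htc] at h
    have e1 : c * (σ * τ) * (σ * τ)⁻¹ = c := mul_inv_cancel_right _ _
    rw [e1, htc] at h2
    have e2 : t (c * (σ * τ) * (σ * τ)) = t (c * σ * σ) := by
      rw [TS1 (c * (σ * τ))]
      have := TT (c * σ) σ
      simpa only [mul_assoc] using this
    rw [e2] at h2
    linear_combination h2 - h

end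

end PsR

end Vale.Agent.P022.L3
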