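import Vale.Agent.P022.H111.L3.Word

/-!
P022-L3: the six relations between `x, y, z, A, B, C`, multiplied by `e`.
-/

noncomputable section

namespace Vale.Agent.P022.L3

open MvPolynomial

/-- the six relations -/
def rels : Fin 6 → Pl :=
  ![2 * X 5 - X 3 * X 0, 2 * X 4 - X 3 * X 1, X 1 ^ 2 - X 0 ^ 2 + 4 * X 2,
    X 4 * X 0 - X 5 * X 1, X 1 * X 4 - X 0 * X 5 + 2 * X 2 * X 3,
    X 5 ^ 2 - X 4 ^ 2 - X 2 * X 3 ^ 2]

namespace PR

variable {G R A : Type*} [Group G] [CommRing R] [Ring A] [Algebra R A] (P : PR G R A)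

theorem T_one : algebraMap R A (P.T 1) = 2 := by
  rw [P.T_eq, P.st_one, map_one]; norm_num

theorem T_mul (g h : G) : algebraMap R A (P.T g * P.T h) =
    algebraMap R A (P.T (g * h)) + P.D h • algebraMap R A (P.T (g * h⁻¹)) := by
  have h1 : algebraMap R A (P.T g * P.T h) =
      P.ρ g * algebraMap R A (P.T h) + algebraMap R A (P.T h) * P.st g := by
    rw [map_mul, P.T_eq g, add_mul, Algebra.commutes (P.T h) (P.st g)]
  rw [h1, P.T_eq h, P.T_eq (g * h), P.T_eq (g * h⁻¹), P.st_mul, map_mul]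
  simp only [mul_add, add_mul, st, smul_add, map_mul, mul_inv_rev, inv_inv, smul_smul,
    mul_smul_comm, smul_mul_assoc]
  have : P.D h * (P.D g * P.D h⁻¹) = P.D g := by
    rw [mul_left_comm, ← map_mul, mul_inv_cancel, map_one, mul_one]
  rw [this]
  abel

theorem eqE_mul {e : R} {g g' : G} (h : e • P.ρ g = e • P.ρ g') (a b : G) :
    e • P.ρ (a * g * b) = e • P.ρ (a * g' * b) := by
  simp only [map_mul]
  rw [← smul_mul_assoc, ← mul_smul_comm, h, mul_smul_comm, smul_mul_assoc]

theorem eqE_inv {e : R} {g g' : G} (h : e • P.ρ g = e • P.ρ g') :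
    e • P.ρ g⁻¹ = e • P.ρ g'⁻¹ := by
  have h1 := P.eqE_mul h g⁻¹ g'⁻¹
  rw [inv_mul_cancel, one_mul, mul_assoc, mul_inv_cancel, mul_one] at h1
  exact h1.symm

theorem eqE {e : R} {g g' : G} (h : e • P.ρ g = e • P.ρ g') (hD : P.D g = P.D g') :
    e • algebraMap R A (P.T g) = e • algebraMap R A (P.T g') := by
  rw [P.hT, P.hT, hD, smul_add, smul_add, h, smul_comm, P.eqE_inv h, smul_comm]

section

variable {c τ σ : G} {e : R} (hc : c * c = 1) (hDc : P.D c = -1) (hτ : P.D τ = -1)
  (hr : σ * τ * σ⁻¹ = τ ^ 3) (he : e • algebraMap R A (P.T τ) = 0)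

include hc hDc hτ hr he

theorem rels_eq (i : Fin 6) :
    e • algebraMap R A (aeval (P.vals c τ σ) (rels i)) = 0 := by
  have h := P.relE hc hDc hτ hr he
  have hci : c⁻¹ = c := inv_eq_of_mul_eq_one_left hc
  -- basic congruences
  have tt : e • P.ρ (τ * τ) = e • P.ρ 1 := by rw [map_mul, map_one]; exact h.tt
  have ts : e • P.ρ (τ * σ) = e • P.ρ (σ * τ) := by rw [map_mul, map_mul]; exact h.ut
  have ti : e • P.ρ τ⁻¹ = e • P.ρ τ := by
    have := P.eqE_mul tt τ⁻¹ 1
    simp only [mul_one, inv_mul_cancel_left] at this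
    exact this.symm
  have Dci : P.D c * P.D c = 1 := by rw [hDc]; ring
  have Tc := P.T_c hc hDc
  -- traces of words
  have DT (g g' : G) (h1 : e • P.ρ g = e • P.ρ g') (h2 : P.D g = P.D g') :
    e • algebraMap R A (P.T g) = e • algebraMap R A (P.T g') := P.eqE h1 h2
  have eT (g g' : G) (h1 : e • P.ρ g = e • P.ρ g') (h2 : P.D g = P.D g') (r : R) :
      e • r • algebraMap R A (P.T g) = e • r • algebraMap R A (P.T g') := by
    rw [smul_comm, P.eqE h1 h2, smul_comm]
  -- `A x = 2 C`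
  have r0 : e • algebraMap R A (P.T (c * τ) * P.T σ) =
      e • (2 * algebraMap R A (P.T (c * σ * τ))) := by
    rw [mul_comm, P.T_mul, smul_add, mul_inv_rev, hci]
    have a1 : e • algebraMap R A (P.T (σ * (c * τ))) = e • algebraMap R A (P.T (c * σ * τ)) := by
      rw [P.T_comm (c * τ) σ, mul_assoc, mul_assoc]
      refine DT _ _ ?_ ?_
      · simpa using P.eqE_mul ts c 1
      · simp only [map_mul]; ring
    have a2 : e • P.D (c * τ) • algebraMap R A (P.T (σ * (τ⁻¹ * c))) =
        e • algebraMap R A (P.T (c * σ * τ)) := by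
      rw [map_mul, hDc, hτ, neg_mul_neg, one_mul, one_smul, ← mul_assoc, P.T_comm c (σ * τ⁻¹),
        ← mul_assoc]
      refine DT _ _ ?_ ?_
      · simpa using P.eqE_mul ti (c * σ) 1
      · simp only [map_mul]
        have : P.D τ⁻¹ = P.D τ := by
          have h3 : P.D τ * P.D τ⁻¹ = 1 := by rw [← map_mul]; simp
          rw [hτ] at h3 ⊢
          linear_combination -h3
        rw [this]
    rw [a1, a2, two_mul, smul_add]
  have Dτi : P.D τ⁻¹ = -1 := by
    have h3 : P.D τ * P.D τ⁻¹ = 1 := by rw [← map_mul]; simp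
    rw [hτ] at h3
    linear_combination -h3
  have r1 : e • algebraMap R A (P.T (c * τ) * P.T (σ * τ)) =
      e • (2 * algebraMap R A (P.T (c * σ))) := by
    rw [mul_comm, P.T_mul, smul_add, mul_inv_rev, hci]
    have a1 : e • algebraMap R A (P.T (σ * τ * (c * τ))) = e • algebraMap R A (P.T (c * σ)) := by
      have : σ * τ * (c * τ) = (σ * τ * c) * τ := by simp only [mul_assoc]
      rw [this, P.T_comm τ (σ * τ * c), P.T_comm σ c]
      refine DT _ _ ?_ ?_
      · have b1 : e • P.ρ (τ * (σ * τ * c)) = e • P.ρ (σ * τ * (τ * c)) := by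
          have := P.eqE_mul ts 1 (τ * c)
          simpa [mul_assoc] using this
        have b2 := P.eqE_mul tt σ c
        rw [b1]
        simpa [mul_assoc] using b2
      · simp only [map_mul, hτ]; ring
    have a2 : e • P.D (c * τ) • algebraMap R A (P.T (σ * τ * (τ⁻¹ * c))) =
        e • algebraMap R A (P.T (c * σ)) := by
      rw [map_mul, hDc, hτ, neg_mul_neg, one_mul, one_smul]
      have : σ * τ * (τ⁻¹ * c) = σ * c := by group
      rw [this, P.T_comm c σ]
    rw [a1, a2, two_mul, smul_add]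
  have r2 : e • algebraMap R A (P.T (σ * τ) * P.T (σ * τ)) =
      e • algebraMap R A (P.T σ * P.T σ - 4 * P.D σ) := by
    rw [P.T_mul, mul_inv_cancel, P.T_one]
    have a1 : e • algebraMap R A (P.T (σ * τ * (σ * τ))) =
        e • algebraMap R A (P.T (σ * σ)) := by
      refine DT _ _ ?_ ?_
      · have b1 := P.eqE_mul ts σ τ
        have b2 := P.eqE_mul tt (σ * σ) 1
        have : σ * τ * (σ * τ) = σ * (τ * σ) * τ := by simp only [mul_assoc]
        rw [this, b1]
        simpa [mul_assoc] using b2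
      · simp only [map_mul, hτ]; ring
    have a2 : algebraMap R A (P.T σ * P.T σ) = algebraMap R A (P.T (σ * σ)) + P.D σ • (2 : A) := by
      rw [P.T_mul, mul_inv_cancel, P.T_one]
    rw [smul_add, a1, map_sub, a2, map_mul, hτ]
    have : algebraMap R A (4 * P.D σ) = P.D σ • (4 : A) := by
      rw [mul_comm, map_mul, map_ofNat, Algebra.smul_def]
    rw [this]
    have e4 : (4 : A) = 2 + 2 := by norm_num
    rw [e4]
    module
  have r3 : e • algebraMap R A (P.T (c * σ) * P.T σ) =
      e • algebraMap R A (P.T (c * σ * τ) * P.T (σ * τ)) := by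
    rw [P.T_mul, P.T_mul]
    have a1 : c * σ * σ⁻¹ = c := by group
    have a2 : c * σ * τ * (σ * τ)⁻¹ = c := by group
    rw [a1, a2, Tc, smul_zero, smul_zero, add_zero, add_zero]
    symm
    refine DT _ _ ?_ ?_
    · have b1 := P.eqE_mul ts (c * σ) τ
      have b2 := P.eqE_mul tt (c * σ * σ) 1
      have : c * σ * τ * (σ * τ) = c * σ * (τ * σ) * τ := by simp only [mul_assoc]
      rw [this, b1]
      simpa [mul_assoc] using b2
    · simp only [map_mul, hτ]; ring
  have r4 : e • algebraMap R A (P.T (σ * τ) * P.T (c * σ)) + e • algebraMap R A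
      (2 * P.D σ * P.T (c * τ)) = e • algebraMap R A (P.T σ * P.T (c * σ * τ)) := by
    rw [mul_comm (P.T (σ * τ)), mul_comm (P.T σ), P.T_mul, P.T_mul]
    have a1 : e • algebraMap R A (P.T (c * σ * τ * σ)) =
        e • algebraMap R A (P.T (c * σ * (σ * τ))) := by
      refine DT _ _ ?_ ?_
      · have b1 := P.eqE_mul ts (c * σ) 1
        simpa [mul_assoc] using b1
      · simp only [map_mul]; ring
    have a2 : e • P.D (σ * τ) • algebraMap R A (P.T (c * σ * (σ * τ)⁻¹)) =
        -(e • P.D σ • algebraMap R A (P.T (c * τ))) := by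
      have b1 : e • P.ρ (c * σ * (σ * τ)⁻¹) = e • P.ρ (c * τ) := by
        have c1 := P.eqE_inv ts
        have c2 := P.eqE_mul c1 (c * σ) 1
        have c3 : c * σ * (σ * τ)⁻¹ * 1 = c * σ * (σ * τ)⁻¹ := by group
        have c4 : c * σ * (τ * σ)⁻¹ * 1 = c * τ⁻¹ := by group
        rw [c3, c4] at c2
        rw [← c2]
        simpa using P.eqE_mul ti c 1
      rw [eT _ _ b1 ?_ _]
      · rw [map_mul, hτ]
        module
      · simp only [map_mul, mul_inv_rev, hτ, Dτi]
        have h3 : P.D σ * P.D σ⁻¹ = 1 := by rw [← map_mul]; simp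
        linear_combination (-P.D c) * h3
    have a3 : e • P.D σ • algebraMap R A (P.T (c * σ * τ * σ⁻¹)) =
        e • P.D σ • algebraMap R A (P.T (c * τ)) := by
      refine eT _ _ ?_ ?_ _
      · have c2 := P.eqE_mul ts c σ⁻¹
        have c3 : c * (τ * σ) * σ⁻¹ = c * τ := by group
        have c4 : c * (σ * τ) * σ⁻¹ = c * σ * τ * σ⁻¹ := by group
        rw [c3, c4] at c2
        exact c2.symm
      · simp only [map_mul]
        have h3 : P.D σ * P.D σ⁻¹ = 1 := by rw [← map_mul]; simp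
        linear_combination (P.D c * P.D τ) * h3
    have a4 : algebraMap R A (2 * P.D σ * P.T (c * τ)) =
        P.D σ • algebraMap R A (P.T (c * τ)) + P.D σ • algebraMap R A (P.T (c * τ)) := by
      rw [mul_assoc, two_mul, map_add, map_mul, Algebra.smul_def]
    rw [smul_add, smul_add, a1, a2, a3, a4, smul_add]
    abel
  have r5 : e • algebraMap R A (P.T (c * σ * τ) * P.T (c * σ * τ)) =
      e • algebraMap R A (P.T σ * P.T (c * τ) * P.T (c * σ * τ) - P.D σ * P.T (c * τ) ^ 2 -
        P.T (c * σ) ^ 2) := by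
    rw [P.T_mul, mul_inv_cancel, P.T_one]
    have a1 := P.word hc hDc hτ hr he [0, 2, 1, 0, 2, 1]
    have a2 : (List.map ![c, τ, σ] [0, 2, 1, 0, 2, 1]).prod = c * σ * τ * (c * σ * τ) := by
      simp [mul_assoc]
    rw [a2] at a1
    have a3 : aeval (P.vals c τ σ) (Phi [0, 2, 1, 0, 2, 1]) =
        P.T σ * P.T (c * τ) * P.T (c * σ * τ) - P.D σ * P.T (c * τ) ^ 2 -
        P.T (c * σ) ^ 2 - 2 * P.D σ := by
      simp only [Phi, nf, NF.mul, NF.tr, map_add, map_mul, aeval_X, map_neg, map_zero, map_one,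
        map_ofNat, vals, Matrix.cons_val]
      ring
    rw [smul_add, a1, a3, map_mul, map_mul, hDc, hτ]
    have : algebraMap R A (P.T σ * P.T (c * τ) * P.T (c * σ * τ) - P.D σ * P.T (c * τ) ^ 2 -
        P.T (c * σ) ^ 2 - 2 * P.D σ) = algebraMap R A (P.T σ * P.T (c * τ) * P.T (c * σ * τ) -
        P.D σ * P.T (c * τ) ^ 2 - P.T (c * σ) ^ 2) - P.D σ • (2 : A) := by
      rw [map_sub _ _ (2 * P.D σ), mul_comm 2, map_mul _ (P.D σ), map_ofNat, Algebra.smul_def]
    rw [this]
    module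
  fin_cases i
  · simp only [rels, Fin.zero_eta, Matrix.cons_val, map_sub, map_mul, map_ofNat, aeval_X]
    have v0 : P.vals c τ σ 0 = P.T σ := rfl
    have v3 : P.vals c τ σ 3 = P.T (c * τ) := rfl
    have v5 : P.vals c τ σ 5 = P.T (c * σ * τ) := rfl
    rw [v0, v3, v5, ← map_mul, smul_sub, r0, sub_self]
  · simp only [rels, Fin.mk_one, Matrix.cons_val, map_sub, map_mul, map_ofNat, aeval_X]
    have v0 : P.vals c τ σ 1 = P.T (σ * τ) := rfl
    have v3 : P.vals c τ σ 3 = P.T (c * τ) := rfl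
    have v5 : P.vals c τ σ 4 = P.T (c * σ) := rfl
    rw [v0, v3, v5, ← map_mul, smul_sub, r1, sub_self]
  · have v0 : P.vals c τ σ 1 = P.T (σ * τ) := rfl
    have v3 : P.vals c τ σ 0 = P.T σ := rfl
    have v5 : P.vals c τ σ 2 = P.D σ := rfl
    have : aeval (P.vals c τ σ) (rels 2) = P.T (σ * τ) * P.T (σ * τ) -
        (P.T σ * P.T σ - 4 * P.D σ) := by
      simp only [rels, Matrix.cons_val, map_sub, map_add, map_mul, map_pow, map_ofNat, aeval_X,
        v0, v3, v5]
      ring
    change e • algebraMap R A (aeval (P.vals c τ σ) (rels 2)) = 0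
    rw [this, map_sub, smul_sub, r2, sub_self]
  · have v0 : P.vals c τ σ 0 = P.T σ := rfl
    have v1 : P.vals c τ σ 1 = P.T (σ * τ) := rfl
    have v4 : P.vals c τ σ 4 = P.T (c * σ) := rfl
    have v5 : P.vals c τ σ 5 = P.T (c * σ * τ) := rfl
    have : aeval (P.vals c τ σ) (rels 3) = P.T (c * σ) * P.T σ -
        P.T (c * σ * τ) * P.T (σ * τ) := by
      simp only [rels, Matrix.cons_val, map_sub, map_mul, aeval_X, v0, v1, v4, v5]
    change e • algebraMap R A (aeval (P.vals c τ σ) (rels 3)) = 0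
    rw [this, map_sub, smul_sub, r3, sub_self]
  · have v0 : P.vals c τ σ 0 = P.T σ := rfl
    have v1 : P.vals c τ σ 1 = P.T (σ * τ) := rfl
    have v2 : P.vals c τ σ 2 = P.D σ := rfl
    have v3 : P.vals c τ σ 3 = P.T (c * τ) := rfl
    have v4 : P.vals c τ σ 4 = P.T (c * σ) := rfl
    have v5 : P.vals c τ σ 5 = P.T (c * σ * τ) := rfl
    have : aeval (P.vals c τ σ) (rels 4) = P.T (σ * τ) * P.T (c * σ) +
        2 * P.D σ * P.T (c * τ) - P.T σ * P.T (c * σ * τ) := by
      simp only [rels, Matrix.cons_val, map_sub, map_add, map_mul, map_ofNat, aeval_X, v0, v1, v2,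
        v3, v4, v5]
      ring
    change e • algebraMap R A (aeval (P.vals c τ σ) (rels 4)) = 0
    rw [this, map_sub, map_add, smul_sub, smul_add, r4, sub_self]
  · have v0 : P.vals c τ σ 0 = P.T σ := rfl
    have v2 : P.vals c τ σ 2 = P.D σ := rfl
    have v3 : P.vals c τ σ 3 = P.T (c * τ) := rfl
    have v4 : P.vals c τ σ 4 = P.T (c * σ) := rfl
    have v5 : P.vals c τ σ 5 = P.T (c * σ * τ) := rfl
    -- `C² = xAC - zA² - B²` and `(2C - Ax) C = 0`
    have : aeval (P.vals c τ σ) (rels 5) =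
        -(P.T (c * σ * τ) * P.T (c * σ * τ)) + (P.T σ * P.T (c * τ) * P.T (c * σ * τ) -
          P.D σ * P.T (c * τ) ^ 2 - P.T (c * σ) ^ 2) +
          P.T (c * σ * τ) * (2 * P.T (c * σ * τ) - P.T (c * τ) * P.T σ) := by
      simp only [rels, Matrix.cons_val, map_sub, map_mul, map_pow, aeval_X, v2, v3, v4, v5]
      ring
    change e • algebraMap R A (aeval (P.vals c τ σ) (rels 5)) = 0
    have h0 : e • algebraMap R A (2 * P.T (c * σ * τ) - P.T (c * τ) * P.T σ) = 0 := by
      rw [map_sub, smul_sub, r0, map_mul, map_ofNat, sub_self]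
    rw [this, map_add, smul_add, map_add, smul_add, map_neg, smul_neg, r5, neg_add_cancel,
      zero_add, map_mul, ← mul_smul_comm, h0, mul_zero]

end

end PR

end Vale.Agent.P022.L3
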