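import Vale.Agent.P022.H111.L3.TFRel

/-!
P022-L3: the relations of the six letters in `T / Ann(x)`, `x = t(σ)`.
-/

namespace Vale.Agent.P022.L3

open Vale.Agent.P022.H346 Vale.Agent.P022.H132.Z

/-- the annihilator of `x` -/
def annX {R : Type*} [CommRing R] (x : R) : Ideal R := LinearMap.ker (LinearMap.mul R R x)

theorem mem_annX {R : Type*} [CommRing R] {x a : R} : a ∈ annX x ↔ x * a = 0 := by
  simp [annX]

variable {R H : Type*} [CommRing R] [Group H] {t : H → R} {d : H →* Rˣ}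

/-- a trace function modulo an ideal -/
theorem TF.quot (P : TF t d) (I : Ideal R) :
    TF (fun g => Ideal.Quotient.mk I (t g))
      ((Units.map (Ideal.Quotient.mk I : R →* R ⧸ I)).comp d) where
  one := by rw [P.one]; exact map_ofNat _ 2
  comm g h := by rw [P.comm]
  mul g h := by
    rw [← map_mul, P.mul, map_add, map_mul]
    rfl

variable (P : TF t d) (tf : ∀ a : R, 2 * a = 0 → a = 0) {c σ τ : H} (hc : c * c = 1)
  (hdc : (d c : R) = -1) (hdτ : (d τ : R) = -1)
  (hr : ∀ a b : H, t (a * (σ * (τ * b))) = t (a * (τ * (τ * (τ * (σ * b))))))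

include P tf hc hdc in
theorem TF.tc_zero : t c = 0 := by
  have h := TFR.t_c P hc hdc 1
  rw [P.one] at h
  exact tf _ h

include P tf hc hdc hdτ hr in
/-- in `T / Ann(x)`: `τ` has trace zero and the relations hold -/
theorem TF.rels_quot :
    Ideal.Quotient.mk (annX (t σ)) (t τ) = 0 ∧
    Rel (Ideal.Quotient.mk (annX (t σ)) (t σ)) (Ideal.Quotient.mk (annX (t σ)) (t (σ * τ)))
      (Ideal.Quotient.mk (annX (t σ)) (d σ)) (Ideal.Quotient.mk (annX (t σ)) (t (c * τ)))
      (Ideal.Quotient.mk (annX (t σ)) (t (c * σ)))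
      (Ideal.Quotient.mk (annX (t σ)) (t (c * τ * σ))) := by
  have hq := TF.quot P (annX (t σ))
  have h0 : Ideal.Quotient.mk (annX (t σ)) (t τ) = 0 := by
    rw [Ideal.Quotient.eq_zero_iff_mem, mem_annX]
    exact TFR.x_m P hdτ hr
  have hc0 : Ideal.Quotient.mk (annX (t σ)) (t c) = 0 := by
    rw [TF.tc_zero P tf hc hdc, map_zero]
  have h1 := TFR.rels hq hc (by
    change Ideal.Quotient.mk (annX (t σ)) (d c : R) = -1
    rw [hdc, map_neg, map_one]) (by
    change Ideal.Quotient.mk (annX (t σ)) (d τ : R) = -1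
    rw [hdτ, map_neg, map_one]) (σ := σ) (fun a b => by rw [hr]) hc0 h0
  have h2 : Ideal.Quotient.mk (annX (t σ)) (t (c * (σ * τ))) =
      Ideal.Quotient.mk (annX (t σ)) (t (c * τ * σ)) := by
    have := TFR.ts hq (by
      change Ideal.Quotient.mk (annX (t σ)) (d τ : R) = -1
      rw [hdτ, map_neg, map_one]) (σ := σ) (fun a b => by rw [hr]) h0 c 1
    simp only [mul_one, ← mul_assoc] at this ⊢
    exact this
  refine ⟨h0, ?_⟩
  have h3 := h1
  rw [h2] at h3
  exact ⟨h3.r1, h3.r2, h3.r3, h3.r4, h3.r5⟩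

include P tf hc hdc hdτ hr in
/-- the relations multiplied by `x` -/
theorem TF.relsX (x y z A B C : R) (hx : x = t σ) (hy : y = t (σ * τ)) (hz : z = d σ)
    (hA : A = t (c * τ)) (hB : B = t (c * σ)) (hC : C = t (c * τ * σ)) :
    x * (2 * C - A * x) = 0 ∧ x * (2 * B - A * y) = 0 ∧ x * (y ^ 2 - (x ^ 2 - 4 * z)) = 0 ∧
      x * (y * B - (C * x - 2 * A * z)) = 0 ∧ x * (B ^ 2 - (C ^ 2 - A ^ 2 * z)) = 0 ∧
      x * t τ = 0 := by
  have h := (TF.rels_quot P tf hc hdc hdτ hr).2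
  subst hx hy hz hA hB hC
  have key : ∀ a b : R, Ideal.Quotient.mk (annX (t σ)) a = Ideal.Quotient.mk (annX (t σ)) b →
      t σ * (a - b) = 0 := by
    intro a b hab
    rw [← mem_annX]
    exact Ideal.Quotient.eq.1 hab
  have e2 : Ideal.Quotient.mk (annX (t σ)) (2 : R) = 2 := map_ofNat _ 2
  have e4 : Ideal.Quotient.mk (annX (t σ)) (4 : R) = 4 := map_ofNat _ 4
  refine ⟨key _ _ ?_, key _ _ ?_, key _ _ ?_, key _ _ ?_, key _ _ ?_, TFR.x_m P hdτ hr⟩
  all_goals simp only [map_mul, map_sub, map_pow, e2, e4]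
  · exact h.r1
  · exact h.r2
  · exact h.r3
  · exact h.r4
  · exact h.r5

end Vale.Agent.P022.L3
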