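import Mathlib

/-!
P022-L3: the type at 3 is automatic after multiplication by `x = t(σ)`, and the universal trace
polynomial of a word in `c, τ, σ`.
-/

noncomputable section

namespace Vale.Agent.P022.L3

/-! ### representations with central traces -/

/-- a group acting through a ring `A` over the commutative ring `R`, with determinant `D` and
trace `T` -/
structure PR (G R A : Type*) [Group G] [CommRing R] [Ring A] [Algebra R A] where
  ρ : G →* A
  D : G →* R
  T : G → R
  hT : ∀ g, algebraMap R A (T g) = ρ g + D g • ρ g⁻¹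

variable {G R A : Type*} [Group G] [CommRing R] [Ring A] [Algebra R A]

namespace PR

variable (P : PR G R A)

/-- the adjoint `D(g) g⁻¹` -/
def st (g : G) : A := P.D g • P.ρ g⁻¹

theorem T_eq (g : G) : algebraMap R A (P.T g) = P.ρ g + P.st g := P.hT g

theorem st_mul (g h : G) : P.st (g * h) = P.st h * P.st g := by
  simp only [st, map_mul, mul_inv_rev, smul_mul_assoc, mul_smul_comm, smul_smul]

theorem st_one : P.st 1 = 1 := by simp [st]

theorem st_eq (g : G) : P.st g = algebraMap R A (P.T g) - P.ρ g := by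
  rw [T_eq]; abel

theorem ρ_mul_inv (g : G) : P.ρ g * P.ρ g⁻¹ = 1 := by rw [← map_mul]; simp

theorem ρ_inv_mul (g : G) : P.ρ g⁻¹ * P.ρ g = 1 := by rw [← map_mul]; simp

theorem T_conj (g h : G) : algebraMap R A (P.T (h * g * h⁻¹)) = algebraMap R A (P.T g) := by
  have h1 : P.st (h * g * h⁻¹) = P.ρ h * P.st g * P.ρ h⁻¹ := by
    simp only [st, map_mul, mul_inv_rev, inv_inv, mul_smul_comm, smul_mul_assoc]
    have : P.D h * P.D g * P.D h⁻¹ = P.D g := by
      rw [mul_comm (P.D h), mul_assoc, ← map_mul]; simp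
    rw [this, mul_assoc]
  rw [T_eq, h1, map_mul, map_mul]
  have : P.ρ h * P.ρ g * P.ρ h⁻¹ + P.ρ h * P.st g * P.ρ h⁻¹ =
      P.ρ h * algebraMap R A (P.T g) * P.ρ h⁻¹ := by
    rw [T_eq]; noncomm_ring
  rw [this, ← Algebra.commutes, mul_assoc, ρ_mul_inv, mul_one]

/-- Cayley-Hamilton -/
theorem sq (g : G) : P.ρ g * P.ρ g = P.T g • P.ρ g - P.D g • (1 : A) := by
  have h := congrArg (· * P.ρ g) (P.hT g)
  simp only [add_mul, smul_mul_assoc, ρ_inv_mul] at h
  rw [Algebra.smul_def (P.T g), h]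
  abel

theorem st_sq (g : G) : P.st g * P.st g = P.T g • P.st g - P.D g • (1 : A) := by
  have h := P.sq g
  have h2 : P.ρ g * algebraMap R A (P.T g) = P.T g • P.ρ g := by
    rw [← Algebra.commutes, Algebra.smul_def]
  have h3 : algebraMap R A (P.T g) * algebraMap R A (P.T g) =
      P.T g • algebraMap R A (P.T g) := by rw [Algebra.smul_def]
  have h4 : algebraMap R A (P.T g) * P.ρ g = P.T g • P.ρ g := by rw [Algebra.smul_def]
  rw [st_eq]
  simp only [sub_mul, mul_sub, smul_sub]
  rw [h, h2, h3, h4]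
  abel

section type3

variable {σ τ : G} (hτ : P.D τ = -1) (hr : σ * τ * σ⁻¹ = τ ^ 3)

include hτ in
theorem τ_sq : P.ρ τ * P.ρ τ = P.T τ • P.ρ τ + 1 := by
  rw [P.sq, hτ, neg_smul, one_smul, sub_neg_eq_add]

include hτ in
theorem τs_sq : P.st τ * P.st τ = P.T τ • P.st τ + 1 := by
  rw [P.st_sq, hτ, neg_smul, one_smul, sub_neg_eq_add]

include hr in
theorem rel : σ * τ = τ * τ * τ * σ := by
  have := congrArg (· * σ) hr
  simp only [inv_mul_cancel_right] at this
  rw [this]; simp [pow_succ]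

theorem T_comm (σ τ : G) : algebraMap R A (P.T (τ * σ)) = algebraMap R A (P.T (σ * τ)) := by
  rw [← P.T_conj (τ * σ) σ]
  congr 2
  group

include hτ hr in
/-- `m y = 0` -/
theorem m_y : P.T τ • algebraMap R A (P.T (σ * τ)) = 0 := by
  have h1 : algebraMap R A (P.T (τ * (τ * σ))) = algebraMap R A (P.T σ) := by
    rw [← P.T_conj σ τ⁻¹]
    congr 2
    rw [inv_inv, mul_assoc, rel (σ := σ) (τ := τ) hr]
    group
  have h2 : algebraMap R A (P.T (τ * (τ * σ))) =
      P.T τ • algebraMap R A (P.T (σ * τ)) + algebraMap R A (P.T σ) := by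
    rw [← P.T_comm σ τ, P.T_eq (τ * σ), P.T_eq σ, P.T_eq, P.st_mul, P.st_mul]
    simp only [map_mul]
    have e1 : P.ρ τ * (P.ρ τ * P.ρ σ) = P.T τ • (P.ρ τ * P.ρ σ) + P.ρ σ := by
      rw [← mul_assoc, P.τ_sq hτ]
      simp only [add_mul, smul_mul_assoc, one_mul]
    have e2 : P.st σ * P.st τ * P.st τ = P.T τ • (P.st σ * P.st τ) + P.st σ := by
      rw [mul_assoc (P.st σ), P.τs_sq hτ]
      simp only [mul_add, mul_smul_comm, mul_one]
    rw [e1, e2]
    module
  rw [h1] at h2
  exact left_eq_add.1 (by rw [add_comm]; exact h2)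

include hτ hr in
/-- `m x = 0` -/
theorem m_x : P.T τ • algebraMap R A (P.T σ) = 0 := by
  have h1 : algebraMap R A (P.T (σ * τ)) = algebraMap R A (P.T (τ * (τ * (τ * σ)))) := by
    rw [rel (σ := σ) (τ := τ) hr, mul_assoc, mul_assoc]
  have h0 := P.m_y hτ hr
  have h2 : algebraMap R A (P.T (τ * (τ * (τ * σ)))) =
      (P.T τ * P.T τ + 1) • algebraMap R A (P.T (σ * τ)) + P.T τ • algebraMap R A (P.T σ) := by
    rw [← P.T_comm σ τ, P.T_eq (τ * σ), P.T_eq σ, P.T_eq, P.st_mul, P.st_mul, P.st_mul]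
    simp only [map_mul]
    have e1 : P.ρ τ * (P.ρ τ * (P.ρ τ * P.ρ σ)) =
        (P.T τ * P.T τ + 1) • (P.ρ τ * P.ρ σ) + P.T τ • P.ρ σ := by
      rw [← mul_assoc, P.τ_sq hτ]
      simp only [add_mul, smul_mul_assoc, one_mul]
      rw [← mul_assoc, P.τ_sq hτ]
      simp only [add_mul, smul_mul_assoc, one_mul]
      module
    have e2 : P.st σ * P.st τ * P.st τ * P.st τ =
        (P.T τ * P.T τ + 1) • (P.st σ * P.st τ) + P.T τ • P.st σ := by
      rw [mul_assoc (P.st σ * P.st τ), P.τs_sq hτ]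
      simp only [mul_add, mul_smul_comm, mul_one]
      rw [mul_assoc (P.st σ), P.τs_sq hτ]
      simp only [mul_add, mul_smul_comm, mul_one]
      module
    rw [e1, e2]
    module
  rw [h1] at h0
  rw [h1] at h2
  have h3 : P.T τ • algebraMap R A (P.T σ) = - (P.T τ • (P.T τ •
      algebraMap R A (P.T (τ * (τ * (τ * σ)))))) := by
    have := h2
    rw [add_smul, one_smul, mul_smul] at this
    have h4 : P.T τ • P.T τ • algebraMap R A (P.T (τ * (τ * (τ * σ)))) +
        P.T τ • algebraMap R A (P.T σ) = 0 := by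
      have h5 := sub_eq_zero.2 this.symm
      rw [← h5]
      abel
    rw [eq_neg_iff_add_eq_zero, add_comm]
    exact h4
  rw [h3, h0, smul_zero, neg_zero]

end type3

end PR

end Vale.Agent.P022.L3
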