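import Vale.Agent.P022.H111.L3.Type

/-!
P022-L3: the universal trace polynomial of a word in `c, τ, σ`.
-/

noncomputable section

namespace Vale.Agent.P022.L3

open MvPolynomial

/-- the polynomial ring in `x, y, z, α, β, γ` -/
abbrev Pl : Type := MvPolynomial (Fin 6) ℤ

/-- the normal form `p₀ + p₁ τ + p₂ σ + p₃ στ + c (q₀ + q₁ τ + q₂ σ + q₃ στ)` -/
structure NF where
  (p0 p1 p2 p3 q0 q1 q2 q3 : Pl)

/-- the letters: `0 = c`, `1 = τ`, `2 = σ`; left multiplication on normal forms -/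
def NF.mul : Fin 3 → NF → NF
  | 0, n => ⟨n.q0, n.q1, n.q2, n.q3, n.p0, n.p1, n.p2, n.p3⟩
  | 1, n => ⟨n.p1 + X 3 * n.q0, n.p0 + X 3 * n.q1, n.p3 + X 3 * n.q2, n.p2 + X 3 * n.q3,
      -n.q1, -n.q0, -n.q3, -n.q2⟩
  | 2, n => ⟨-(X 2 * n.p2) + X 4 * n.q0, -(X 2 * n.p3) + X 4 * n.q1,
      n.p0 + X 0 * n.p2 + X 4 * n.q2, n.p1 + X 0 * n.p3 + X 4 * n.q3,
      X 0 * n.q0 + X 2 * n.q2, X 0 * n.q1 + X 2 * n.q3, -n.q0, -n.q1⟩

/-- the normal form of a word -/
def nf : List (Fin 3) → NF
  | [] => ⟨1, 0, 0, 0, 0, 0, 0, 0⟩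
  | i :: w => (nf w).mul i

/-- the trace of a normal form -/
def NF.tr (n : NF) : Pl :=
  2 * n.p0 + X 0 * n.p2 + X 1 * n.p3 + X 3 * n.q1 + X 4 * n.q2 + X 5 * n.q3

/-- **the universal trace polynomial of a word** -/
def Phi (w : List (Fin 3)) : Pl := (nf w).tr

section

variable {R B : Type*} [CommRing R] [Ring B] [Algebra R B]

/-- the relations -/
structure Rel1 (c t u : B) (x z α β : R) : Prop where
  cc : c * c = 1
  tt : t * t = 1
  uu : u * u = x • u - z • (1 : B)
  ut : t * u = u * t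
  tc : t * c = α • (1 : B) - c * t
  uc : u * c = β • (1 : B) + x • c - c * u

/-- evaluation of a normal form -/
def NF.ev (n : NF) (v : Fin 6 → R) (c t u : B) : B :=
  aeval v n.p0 • (1 : B) + aeval v n.p1 • t + aeval v n.p2 • u + aeval v n.p3 • (u * t) +
    aeval v n.q0 • c + aeval v n.q1 • (c * t) + aeval v n.q2 • (c * u) +
    aeval v n.q3 • (c * (u * t))

variable {c t u : B} {v : Fin 6 → R}

theorem NF.ev_mul (h : Rel1 c t u (v 0) (v 2) (v 3) (v 4)) (i : Fin 3) (n : NF) :
    ![c, t, u] i * n.ev v c t u = (n.mul i).ev v c t u := by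
  have a1 : t * (u * t) = u := by rw [← mul_assoc, h.ut, mul_assoc, h.tt, mul_one]
  have a2 : t * (c * t) = v 3 • t - c := by
    rw [← mul_assoc, h.tc, sub_mul, smul_mul_assoc, one_mul, mul_assoc, h.tt, mul_one]
  have a3 : t * (c * u) = v 3 • u - c * (u * t) := by
    rw [← mul_assoc, h.tc, sub_mul, smul_mul_assoc, one_mul, mul_assoc, h.ut]
  have a4 : t * (c * (u * t)) = v 3 • (u * t) - c * u := by
    rw [← mul_assoc, h.tc, sub_mul, smul_mul_assoc, one_mul, mul_assoc, a1]
  have b1 : u * (u * t) = v 0 • (u * t) - v 2 • t := by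
    rw [← mul_assoc, h.uu, sub_mul, smul_mul_assoc, smul_mul_assoc, one_mul]
  have b2 : u * (c * t) = v 4 • t + v 0 • (c * t) - c * (u * t) := by
    rw [← mul_assoc, h.uc]
    simp only [sub_mul, add_mul, smul_mul_assoc, one_mul, mul_assoc]
  have b3 : u * (c * u) = v 4 • u + v 2 • c := by
    rw [← mul_assoc, h.uc]
    simp only [sub_mul, add_mul, smul_mul_assoc, one_mul, mul_assoc, h.uu, mul_sub,
      mul_smul_comm, mul_one]
    module
  have b4 : u * (c * (u * t)) = v 4 • (u * t) + v 2 • (c * t) := by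
    rw [← mul_assoc, h.uc]
    simp only [sub_mul, add_mul, smul_mul_assoc, one_mul, mul_assoc, b1, mul_sub,
      mul_smul_comm]
    module
  have c1 : c * (c * t) = t := by rw [← mul_assoc, h.cc, one_mul]
  have c2 : c * (c * u) = u := by rw [← mul_assoc, h.cc, one_mul]
  have c3 : c * (c * (u * t)) = u * t := by rw [← mul_assoc, h.cc, one_mul]
  fin_cases i
  · change c * n.ev v c t u = (n.mul 0).ev v c t u
    simp only [NF.ev, NF.mul, mul_add, mul_smul_comm, mul_one, h.cc, c1, c2, c3]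
    module
  · change t * n.ev v c t u = (n.mul 1).ev v c t u
    simp only [NF.ev, NF.mul, mul_add, mul_smul_comm, mul_one, h.tt, h.ut, a1,
      a2, a3, a4, h.tc, map_add, map_mul, aeval_X, map_neg]
    module
  · change u * n.ev v c t u = (n.mul 2).ev v c t u
    simp only [NF.ev, NF.mul, mul_add, mul_smul_comm, mul_one, h.uu, b1,
      b2, b3, b4, h.uc, map_add, map_mul, aeval_X, map_neg]
    module

theorem prod_eq (h : Rel1 c t u (v 0) (v 2) (v 3) (v 4)) (w : List (Fin 3)) :
    (w.map ![c, t, u]).prod = (nf w).ev v c t u := by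
  induction w with
  | nil => simp [nf, NF.ev]
  | cons i w ih => rw [List.map_cons, List.prod_cons, ih, NF.ev_mul h, nf]

/-- equality after multiplication by `e` -/
def conE (B : Type*) [Ring B] [Algebra R B] (e : R) : RingCon B where
  r X Y := e • X = e • Y
  iseqv := ⟨fun _ => rfl, fun h => h.symm, fun h h' => h.trans h'⟩
  add' := by
    intro a b c d h h'
    simp only [smul_add] at *
    rw [h, h']
  mul' := by
    intro a b c d h h'
    rw [← smul_mul_assoc, h, smul_mul_assoc, ← mul_smul_comm, h', mul_smul_comm]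

/-- the relations, multiplied by `e` -/
structure RelE (e : R) (c t u : B) (x z α β : R) : Prop where
  cc : e • (c * c) = e • (1 : B)
  tt : e • (t * t) = e • (1 : B)
  uu : e • (u * u) = e • (x • u - z • (1 : B))
  ut : e • (t * u) = e • (u * t)
  tc : e • (t * c) = e • (α • (1 : B) - c * t)
  uc : e • (u * c) = e • (β • (1 : B) + x • c - c * u)

theorem prod_eqE {e : R} (h : RelE e c t u (v 0) (v 2) (v 3) (v 4)) (w : List (Fin 3)) :
    e • (w.map ![c, t, u]).prod = e • (nf w).ev v c t u := by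
  let q : B →ₐ[R] (conE B e).Quotient := 
    { (conE B e).mk' with commutes' := fun r => rfl }
  have hq : ∀ X Y : B, q X = q Y ↔ e • X = e • Y := fun X Y => (conE B e).eq
  have h1 : Rel1 (q c) (q t) (q u) (v 0) (v 2) (v 3) (v 4) := by
    constructor
    · rw [← map_mul, ← map_one q, hq]; exact h.cc
    · rw [← map_mul, ← map_one q, hq]; exact h.tt
    · rw [← map_mul, ← map_one q, ← map_smul, ← map_smul, ← map_sub, hq]; exact h.uu
    · rw [← map_mul, ← map_mul, hq]; exact h.ut
    · rw [← map_mul, ← map_one q, ← map_smul, ← map_mul, ← map_sub, hq]; exact h.tc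
    · rw [← map_mul, ← map_one q, ← map_smul, ← map_smul, ← map_mul, ← map_add, ← map_sub, hq]
      exact h.uc
  have h2 := prod_eq h1 w
  rw [← hq]
  have h3 : q (w.map ![c, t, u]).prod = (w.map ![q c, q t, q u]).prod := by
    rw [map_list_prod, List.map_map]
    congr 1
    apply List.map_congr_left
    intro i _
    fin_cases i <;> rfl
  rw [h3, h2]
  simp only [NF.ev, map_add, map_smul, map_mul, map_one]

end

/-! ### the group level -/

namespace PR

variable {G R A : Type*} [Group G] [CommRing R] [Ring A] [Algebra R A] (P : PR G R A)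

/-- the six parameters -/
def vals (c τ σ : G) : Fin 6 → R :=
  ![P.T σ, P.T (σ * τ), P.D σ, P.T (c * τ), P.T (c * σ), P.T (c * σ * τ)]

variable {c τ σ : G} {e : R}

theorem T_c (hc : c * c = 1) (hDc : P.D c = -1) : algebraMap R A (P.T c) = 0 := by
  rw [P.hT, hDc, inv_eq_of_mul_eq_one_left hc]
  simp

theorem st_c (hc : c * c = 1) (hDc : P.D c = -1) : P.st c = - P.ρ c := by
  rw [P.st_eq, P.T_c hc hDc, zero_sub]

theorem relE (hc : c * c = 1) (hDc : P.D c = -1) (hτ : P.D τ = -1)
    (hr : σ * τ * σ⁻¹ = τ ^ 3) (he : e • algebraMap R A (P.T τ) = 0) :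
    RelE e (P.ρ c) (P.ρ τ) (P.ρ σ) (P.vals c τ σ 0) (P.vals c τ σ 2) (P.vals c τ σ 3)
      (P.vals c τ σ 4) := by
  have hm : ∀ X : A, e • (P.T τ • X) = 0 := by
    intro X
    rw [Algebra.smul_def (P.T τ), ← smul_mul_assoc, he, zero_mul]
  constructor
  · rw [← map_mul, hc, map_one]
  · rw [P.τ_sq hτ, smul_add, hm, zero_add]
  · simp only [vals, Matrix.cons_val]
    rw [P.sq]
  · have h1 : P.ρ σ * P.ρ τ = (P.T τ • P.ρ τ + 1) * P.ρ τ * P.ρ σ := by
      rw [← P.τ_sq hτ, ← map_mul, rel hr]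
      simp only [map_mul]
    rw [h1, add_mul, smul_mul_assoc, one_mul, add_mul, smul_mul_assoc, smul_add, hm, zero_add]
  · simp only [vals, Matrix.cons_val]
    have h1 := P.T_eq (c * τ)
    rw [P.st_mul, P.st_c hc hDc, P.st_eq τ, map_mul, sub_mul, mul_neg, ← Algebra.smul_def] at h1
    rw [← Algebra.algebraMap_eq_smul_one, h1]
    simp only [smul_sub, smul_add, smul_neg, hm, mul_neg, sub_neg_eq_add]
    abel
  · simp only [vals, Matrix.cons_val]
    have h1 := P.T_eq (c * σ)
    rw [P.st_mul, P.st_c hc hDc, P.st_eq σ, map_mul, sub_mul, mul_neg, ← Algebra.smul_def] at h1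
    rw [← Algebra.algebraMap_eq_smul_one, h1]
    simp only [mul_neg, sub_neg_eq_add]
    congr 1
    abel

theorem relEs (hc : c * c = 1) (hDc : P.D c = -1) (hτ : P.D τ = -1)
    (hr : σ * τ * σ⁻¹ = τ ^ 3) (he : e • algebraMap R A (P.T τ) = 0) :
    RelE e (MulOpposite.op (P.st c)) (MulOpposite.op (P.st τ)) (MulOpposite.op (P.st σ))
      (P.vals c τ σ 0) (P.vals c τ σ 2) (P.vals c τ σ 3) (P.vals c τ σ 4) := by
  have hm : ∀ X : A, e • (P.T τ • X) = 0 := by
    intro X
    rw [Algebra.smul_def (P.T τ), ← smul_mul_assoc, he, zero_mul]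
  have h := P.relE hc hDc hτ hr he
  simp only [vals, Matrix.cons_val] at h
  constructor
  · rw [← MulOpposite.op_mul, P.st_c hc hDc, neg_mul_neg, ← map_mul, hc, map_one]
    rfl
  · rw [← MulOpposite.op_mul, P.τs_sq hτ, ← MulOpposite.op_smul, smul_add, hm, zero_add]
    rfl
  · simp only [vals, Matrix.cons_val]
    rw [← MulOpposite.op_mul, P.st_sq]
    rfl
  · rw [← MulOpposite.op_mul, ← MulOpposite.op_mul, ← MulOpposite.op_smul,
      ← MulOpposite.op_smul, ← P.st_mul, ← P.st_mul]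
    congr 1
    rw [P.st_eq, P.st_eq, P.T_comm, map_mul, map_mul, smul_sub, smul_sub, h.ut]
  · simp only [vals, Matrix.cons_val]
    apply MulOpposite.unop_injective
    simp only [MulOpposite.unop_smul, MulOpposite.unop_mul, MulOpposite.unop_op,
      MulOpposite.unop_sub, MulOpposite.unop_one, P.st_c hc hDc, P.st_eq τ]
    have h1 := h.tc
    simp only [mul_sub, sub_mul, mul_neg, neg_mul, smul_sub, smul_neg, h1,
      ← Algebra.smul_def, ← Algebra.commutes, hm]
    abel
  · simp only [vals, Matrix.cons_val]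
    apply MulOpposite.unop_injective
    simp only [MulOpposite.unop_smul, MulOpposite.unop_mul, MulOpposite.unop_op,
      MulOpposite.unop_sub, MulOpposite.unop_add, MulOpposite.unop_one, P.st_c hc hDc, P.st_eq σ]
    have h1 := h.uc
    simp only [mul_sub, sub_mul, mul_neg, neg_mul, smul_sub, smul_neg, smul_add, h1,
      ← Algebra.smul_def, ← Algebra.commutes]
    abel

/-- **the trace of a word, multiplied by `e`** -/
theorem word (hc : c * c = 1) (hDc : P.D c = -1) (hτ : P.D τ = -1)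
    (hr : σ * τ * σ⁻¹ = τ ^ 3) (he : e • algebraMap R A (P.T τ) = 0) (w : List (Fin 3)) :
    e • algebraMap R A (P.T (w.map ![c, τ, σ]).prod) =
      e • algebraMap R A (aeval (P.vals c τ σ) (Phi w)) := by
  have h1 := prod_eqE (P.relE hc hDc hτ hr he) w
  have h2 := congrArg MulOpposite.unop (prod_eqE (P.relEs hc hDc hτ hr he) w)
  have h3 : (w.map ![P.ρ c, P.ρ τ, P.ρ σ]).prod = P.ρ (w.map ![c, τ, σ]).prod := by
    rw [map_list_prod, List.map_map]
    congr 1
    apply List.map_congr_left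
    intro i _
    fin_cases i <;> rfl
  have h4 : (w.map ![MulOpposite.op (P.st c), MulOpposite.op (P.st τ),
      MulOpposite.op (P.st σ)]).prod = MulOpposite.op (P.st (w.map ![c, τ, σ]).prod) := by
    clear h1 h2 h3
    induction w with
    | nil => simp [P.st_one]
    | cons i w ih =>
      rw [List.map_cons, List.map_cons, List.prod_cons, List.prod_cons, ih, P.st_mul,
        MulOpposite.op_mul]
      congr 1
      fin_cases i <;> rfl
  rw [h3] at h1
  rw [h4] at h2
  rw [P.T_eq, smul_add, h1]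
  have h5 : e • P.st (w.map ![c, τ, σ]).prod = MulOpposite.unop (e • MulOpposite.op
    (P.st (w.map ![c, τ, σ]).prod)) := rfl
  rw [h5, h2]
  have hTτ : ∀ r : R, e • r • algebraMap R A (P.T τ) = 0 := by
    intro r
    rw [smul_comm, he, smul_zero]
  set n := nf w
  set v := P.vals c τ σ with hv
  have e1 : MulOpposite.unop (e • n.ev v (MulOpposite.op (P.st c)) (MulOpposite.op (P.st τ))
      (MulOpposite.op (P.st σ))) = e • (aeval v n.p0 • (1 : A) + aeval v n.p1 • P.st τ +
      aeval v n.p2 • P.st σ + aeval v n.p3 • P.st (σ * τ) + aeval v n.q0 • P.st c +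
      aeval v n.q1 • P.st (c * τ) + aeval v n.q2 • P.st (c * σ) +
      aeval v n.q3 • P.st (c * σ * τ)) := by
    rw [P.st_mul, P.st_mul c τ, P.st_mul c σ, mul_assoc c σ τ, P.st_mul c (σ * τ), P.st_mul σ τ]
    rfl
  have e2 : n.ev v (P.ρ c) (P.ρ τ) (P.ρ σ) = (aeval v n.p0 • (1 : A) + aeval v n.p1 • P.ρ τ +
      aeval v n.p2 • P.ρ σ + aeval v n.p3 • P.ρ (σ * τ) + aeval v n.q0 • P.ρ c +
      aeval v n.q1 • P.ρ (c * τ) + aeval v n.q2 • P.ρ (c * σ) +
      aeval v n.q3 • P.ρ (c * σ * τ)) := by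
    simp only [NF.ev, map_mul, mul_assoc]
  have e3 : algebraMap R A (aeval v (Phi w)) = aeval v n.p0 • (2 : A) +
      aeval v n.p2 • algebraMap R A (P.T σ) + aeval v n.p3 • algebraMap R A (P.T (σ * τ)) +
      aeval v n.q1 • algebraMap R A (P.T (c * τ)) + aeval v n.q2 • algebraMap R A (P.T (c * σ)) +
      aeval v n.q3 • algebraMap R A (P.T (c * σ * τ)) := by
    rw [← map_ofNat (algebraMap R A) 2]
    simp only [Algebra.smul_def, ← map_mul, ← map_add]
    congr 1
    have v0 : v 0 = P.T σ := rfl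
    have v1 : v 1 = P.T (σ * τ) := rfl
    have v3 : v 3 = P.T (c * τ) := rfl
    have v4 : v 4 = P.T (c * σ) := rfl
    have v5 : v 5 = P.T (c * σ * τ) := rfl
    simp only [Phi, NF.tr, map_add, map_mul, aeval_X, map_ofNat, v0, v1, v3, v4, v5]
    ring
  rw [e1, e2, e3, ← smul_add]
  have e4 : e • (aeval v n.p1 • algebraMap R A (P.T τ)) = 0 := hTτ _
  have e5 : aeval v n.q0 • algebraMap R A (P.T c) = 0 := by rw [P.T_c hc hDc, smul_zero]
  have e6 : (2 : A) = 1 + 1 := by norm_num
  rw [e6]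
  rw [P.T_eq] at e4 e5
  rw [P.T_eq σ, P.T_eq (σ * τ), P.T_eq (c * τ), P.T_eq (c * σ), P.T_eq (c * σ * τ)]
  rw [← sub_eq_zero]
  have : ∀ X Y : A, X = e • (aeval v n.p1 • (P.ρ τ + P.st τ)) + e • (aeval v n.q0 •
      (P.ρ c + P.st c)) → X = 0 := by
    intro X _ hX
    rw [hX, e4, e5, smul_zero, add_zero]
  apply this _ 0
  module

end PR

end Vale.Agent.P022.L3
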